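/-! # Row 160 (S0241): free Ising model on a regular tree is a factor of iid up to and including
Kesten-Stigum.  COMPLETE PAPER PROOF (helper69).

Rules for the pieces: one file = one piece. Replace the `sorry`s of YOUR file, keep the names and
the statements. You may use everything of the files which your file imports (even if still
`sorry`ed), you may add imports of other R160 files (no cycles). Helper lemmas: put them in your
own file, in a sub-namespace `Crest.Agent.R160.<FILE>aux` (or mark them `private`).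
If a statement is false or too weak: tell helper69 immediately.

ROW 160 (S0241) COMPLETE PAPER PROOF (helper69), strict and equality case together.  d>=3, 0<th<=(d-1)^(-1/2) (th=0: iid spins, trivial).
NOTATION. T=d-regular tree, tau free Ising (edge products eta_e iid mean th, any root uniform and independent of eta), B_v iid BMs indep of tau, X_v(t)=t tau_v+B_v(t), F_t=sigma(X(s),s<=t). T_{y->x}=component of y in T minus edge xy. Messages M_{y->x}(t)=E[tau_y|X on T_{y->x}], recursion (Bayes) M_{y->x}=tanh(X_y+sum_{z~y,z<>x} artanh(th M_{z->y})); m_v=E[tau_v|F_t]=tanh(X_v+sum_z artanh(th M_{z->v})); s_v=1-m_v^2. phi(M)=(1-M^2)/(1-th^2M^2), psi=-log phi.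
A_vu=Cov(tau_v,tau_u|F_t)=s_v prod_i th phi(M_{x_{i+1}->x_i}) along path v=x_0..x_k=u; a_vw=A_vw/s_v=th^K prod phi(messages directed to v); A_vu=a_wv A_wu for w on the path. log(A_vu/th^k)=1/2 log s_v+1/2 log s_u-sum_{e in path} f_e, f_e=(psi(M_{x->y})+psi(M_{y->x}))/2 (symmetric edge functional, even in X).
(INV) algebraic: for two pairs (a,b),(a',b') of messages on an edge, N N' dm_x=da(1-th^2bb')+th db(1-aa') etc., determinant (1-th^2)(1-th^2aa'bb'), so |da|,|db|<=C(|dm_x|+|dm_y|).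
SINGLE TIME FACTS. (3a) q(t)=E m^2<=C sqrt t (t<=1): for independent symmetric observations 1-q>=prod(1-q_i), so q_{n+1}<=1-(1-t)(1-th^2 q_n)^{d-1}. (3b) E prod_{i<k} phi(M_{x_{i+1}->x_i})<=(1-c min(1,t))^k (peel B_{x_1}). (3c) P(|M|>t^{1/8})<=C exp(-c t^{-1/8}), t<=t0 (depth r with th^r~t^{1/4}: independent bounded messages with E zeta^2<=C sqrt t, Bernstein; mean <=C th^{-r} sqrt t by oddness; the X's by union bound). (3e) even functionals of X on disjoint connected sets are independent (gauge tau_r X); cutting at the midpoint |Cov(f_e,f_e')|<=C th^{dist/2} for bounded Lipschitz f.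
(DYN) q(t),: E m_v m_u(t)-E m_v m_u(s)=int sum_x E A_vx A_xu >=0, E A_vu(t) nonincreasing in t, q'=sum_u E A_vu^2. W_v=X_v-int m_v iid BMs (innovation). N=E[m_v(t)|W_{<=t}], R=E N^2: R(t)-R(s)>=int sum_{u in F} E (E[A_vu|W])^2 (Bessel). So D(t):=2E Var(m_v(t)|W_<=t) satisfies D(t)-D(s)<=int_s^t sum_u 2 E Var(A_vu(r)|W_<=r) dr, D(0+)=0.
(K-RANGE) eta_K(t)=(th^2(d-1))^K th^{-2K}E A_vu^2 is nonincreasing in K with sum_{k<=K}eta_k<=q', so eta_K(s)<=C/(K sqrt t) for some s in [t/2,t], and E A(t)<=E A(s)<=(E A(s)^2)^{1/2}: eta_K(t)<=(C/(K sqrt t))^{1/2}. Hence p:=E H^{(K1)}<=eps for K1>=C/sqrt t, where H_w^{->v(K)}=sum over u at distance K from w away from v of a_wu^2<=1.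
(CONC) H^{(2K1)}_w<=th^{2K1} sum_u H_u^{->(K1)}: average of (d-1)^{K1} iid [0,1] variables of mean <=eps/4: P(H_w^{(2K1)}>eps)<=exp(-c(d-1)^{K1}).
MAIN STATIC INEQUALITY (MI). Fix t, G any Aut-invariant sub-sigma-algebra, E_2= two copies cond. iid given G, delta=m-m', D=E_2 delta_v^2, y=log(4/D). CLAIM sum_u E_2|A_vu-A'_vu|^2<=C_T t^{-7/8}(1+y)D for t<=T.
 (a) always |A_vu-A'_vu|<=C th^k sum_{i<=k}|delta_{x_i}| (INV). (b) on U={|X_{x_i}|,|X'_{x_i}|<1 for all i<=k}: |A-A'|<=th^k|log A/th^k-log A'/th^k|<=th^k(C|delta_0|+C|delta_k|+|sum_{e in path} g_e|), g_e=f^_e-f^'_e (f^=clipped). P(U^c)<=C k e^{-c/t}.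
 (c) DECORRELATION: E_2(sum_{e in path of k edges} g_e)^2<=C k E_2 g_e^2. Proof: c(dist(e,e'))=E_2 g_e g_e' is radial (automorphisms), Q_g(x,x)=2E Var(sum x_e f_e|G)<=2Var(sum x_e f_e)=2Q_f(x,x), Q_f(T^n x,T^n x)<=C_x beta^{2n} by (3e) and T r^{d(.,e)}<=beta r^{d(.,e)}, beta<1 for 1/(d-1)<r<1. T selfadjoint for Q_g, so n->Q_g(T^n x,T^n x) is log-convex and Q_g(Tx,Tx)<=beta^2 Q_g(x,x), (1-beta)Q_g(x,x)<=Q_g((I-T)x,x); for x=1_path the right side telescopes to <= C k c(0).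
 (d) E_2 g_e^2<=C E_2 delta^2 min(1,(|M|+|M'|)^2)<=C(t^{1/4}D+min(D,e^{-c t^{-1/8}})) and min(D,eps)<=D(1+log(C/D))/log(1/eps).
 So with y_k=sum_{u in S_k(v)}E_2|A_vu-A'_vu|^2: sum_{k<=K}y_k<=C(K D+K^2 E g^2+K^3 min(D,K e^{-c/t})), same for Xi^(K)=sum_{w in S_K(v)}|a_vw-a'_vw|^2 times K.
 (e) k_max=(C/t)(y+log 1/t): tail sum_{k>k_max}y_k<=D by (3b). (f) y_{K+l}<=2E_2[H_v^{(K)}Y_v^{(l)}]+2E_2[Xi_v^{(K)}E'_v^{(l)}] using A_vu=a_wv A_wu and the automorphism swapping v,w. Choose K=C t^{-1/2}+C log(2+y)+C log(1/t) so that (k_max+1)#B_{k_max} exp(-c(d-1)^{K/2})<=D: on the good event all H_w<=eps (w in B_kmax), sum_{l<=kmax}E'^{(l)}<=CK. So sum_{K<k<=kmax}y_k<=2eps sum_{k<=kmax} y_k+C K E Xi^(K)+D. Absorb. If the log y term dominates K use the crude K^3 D<=C(1+y)D. For t>=t0 use (a) only.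
OSGOOD: D<=int a(r)D(1+log 4/D), a in L^1, D(0+)=0 => D=0. So m_v(t) in sigma(W), X_v=W_v+int m_v in sigma(W), tau=lim m_v(t) in sigma(W): tau is a factor of the iid family (W_v). Exact equivariance: conditional expectations on balls symmetrised over the finitely many ball isomorphisms, then limsup. QED

-/
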